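import Vale.Agent.P293.GStable

/-!
Counterexamples in every dimension at least four, and the fibres of the degree five polynomial.
-/

set_option linter.unusedSectionVars false

namespace Vale.Agent.P295

open MvPolynomial

noncomputable section

theorem high_dim (k : ℕ) : ∃ f : MvPolynomial (Fin (5 + k)) ℂ,
    IsStableCoordinateOf 1 f ∧ ¬ IsCoordinate f := by
  let e : P293.Jx (Fin k) ≃ Fin (5 + k) := finSumFinEquiv
  refine ⟨rename e P293.HH, ?_, ?_⟩
  · obtain ⟨α, hα⟩ := P293.exists_coord (κ := Fin k)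
    let e' : Option (P293.Jx (Fin k)) ≃ Fin (5 + k + 1) :=
      (Equiv.optionCongr e).trans finSuccEquivLast.symm
    let β : Polynomial (P293.P5 (Fin k)) ≃ₐ[ℂ] MvPolynomial (Fin (5 + k + 1)) ℂ :=
      (optionEquivLeft ℂ _).symm.trans (renameEquiv ℂ e')
    have hβ : ∀ G, β (Polynomial.C G) = rename (Fin.castAdd 1) (rename e G) := by
      intro G
      have : ((β : _ →ₐ[ℂ] _).comp Polynomial.CAlgHom) =
          (rename (Fin.castAdd 1)).comp (rename e) := by
        refine MvPolynomial.algHom_ext fun i => ?_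
        have h1 : (optionEquivLeft ℂ _).symm (Polynomial.C (X i : P293.P5 (Fin k))) = X (some i) := by
          rw [AlgEquiv.symm_apply_eq, optionEquivLeft_X_some]
        show renameEquiv ℂ e' ((optionEquivLeft ℂ _).symm (Polynomial.C (X i))) = _
        rw [h1]
        simp only [AlgHom.comp_apply, renameEquiv_apply, rename_X]
        congr 1
        simp [e']
        rfl
      exact DFunLike.congr_fun this G
    refine ⟨fun i => β (α (X (e'.symm i))), ⟨e' none, by simp [hα, hβ]⟩, ?_⟩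
    rw [eq_top_iff]
    intro G _
    refine mem_of_gens (α.trans β) (AlgHom.id ℂ _) _ (fun i => ?_) G
    exact Algebra.subset_adjoin ⟨e' i, by simp⟩
  · rintro ⟨g, ⟨i0, hi0⟩, hg⟩
    obtain ⟨α, hα⟩ := exists_algEquiv_of_adjoin g hg
    let γ : MvPolynomial (Option {i // i ≠ i0}) ℂ ≃ₐ[ℂ] P293.P5 (Fin k) :=
      ((renameEquiv ℂ (Equiv.optionSubtypeNe i0)).trans α).trans (renameEquiv ℂ e).symm
    have hγ : γ (X none) = P293.HH := by
      simp [γ, hα, hi0]
    obtain ⟨δ⟩ := P293.quotient_iso (B' := P293.P5 (Fin k) ⧸ Ideal.span {(P293.HH : P293.P5 (Fin k))})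
      γ (Ideal.Quotient.mkₐ ℂ _) Ideal.Quotient.mk_surjective (fun b => by
        simp [hγ, Ideal.Quotient.eq_zero_iff_mem, Ideal.mem_span_singleton])
    have : Nontrivial {i // i ≠ i0} := by
      rw [← Fintype.one_lt_card_iff_nontrivial]
      simp
      omega
    exact P293.not_iso δ

theorem all_dim (n : ℕ) (hn : 4 ≤ n) : ∃ f : MvPolynomial (Fin n) ℂ,
    IsStableCoordinateOf 1 f ∧ ¬ IsCoordinate f := by
  rcases hn.eq_or_lt with rfl | h
  · exact ⟨quintic, Four.isStable, Four.not_isCoordinate⟩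
  · obtain ⟨k, rfl⟩ := Nat.exists_eq_add_of_le (show 5 ≤ n by omega)
    exact high_dim k

lemma isCoordinate_of_sub_C {n : ℕ} {f : MvPolynomial (Fin n) ℂ} (c : ℂ)
    (h : IsCoordinate (f - C c)) : IsCoordinate f := by
  obtain ⟨g, ⟨i0, hi0⟩, hg⟩ := h
  refine ⟨Function.update g i0 f, ⟨i0, by simp⟩, ?_⟩
  rw [eq_top_iff, ← hg]
  refine Algebra.adjoin_le ?_
  rintro _ ⟨i, rfl⟩
  by_cases h : i = i0
  · subst h
    rw [hi0]
    exact sub_mem (Algebra.subset_adjoin ⟨i, by simp⟩) (Subalgebra.algebraMap_mem _ c)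
  · exact Algebra.subset_adjoin ⟨i, by simp [h]⟩

namespace Four

lemma fibre_iso_of {A : Type} [CommRing A] [Algebra ℂ A] (c : ℂ) (π0 : P4 →ₐ[ℂ] A)
    (hker : ∀ b, π0 b = 0 ↔ quintic - C c ∣ b) (h0 : Function.Surjective π0)
    (θ : P5 →ₐ[ℂ] MvPolynomial (Fin 3) ℂ) (hθH : θ HH = 0) (hθp : θ (X 0) = C c)
    (g : Fin 3 → P5) (hg : ∀ i, θ (g i) = X i)
    (hgen : ∀ S : Subalgebra ℂ A, (∀ i, π0 (pi (g i)) ∈ S) → ∀ i, π0 (pi (X i)) ∈ S) :
    Nonempty (A ≃ₐ[ℂ] MvPolynomial (Fin 3) ℂ) := by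
  let η : MvPolynomial (Fin 3) ℂ →ₐ[ℂ] A := (π0.comp pi).comp (aeval g)
  refine ⟨(AlgEquiv.ofBijective η ⟨?_, ?_⟩).symm⟩
  · rw [injective_iff_map_eq_zero]
    intro a ha
    obtain ⟨b, hb⟩ : quintic - C c ∣ pi (aeval g a) := (hker _).1 ha
    have h1 := congrArg (fun G => θ (mu G)) hb
    simp only [map_mul, map_sub, comp_mu_pi θ hθH] at h1
    rw [← pB_eq, ← pi0, comp_mu_pi θ hθH, hθp] at h1
    have h2 : θ.comp (aeval g) = AlgHom.id ℂ _ := MvPolynomial.algHom_ext fun i => by simp [hg]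
    have h3 := DFunLike.congr_fun h2 a
    simp only [AlgHom.comp_apply, AlgHom.id_apply] at h3
    have h4 : θ (mu (C c)) = C c := by
      rw [← MvPolynomial.algebraMap_eq, AlgHom.commutes, AlgHom.commutes]; rfl
    rw [← h3, h1, h4]
    simp
  · intro a
    obtain ⟨b, rfl⟩ := h0 a
    obtain ⟨G, rfl⟩ := pi_surj b
    exact map_mem_of_X (π0.comp pi) η.range (hgen _ fun i => ⟨X i, by simp [η]⟩) G

lemma fibre_iso {A : Type} [CommRing A] [Algebra ℂ A] (c : ℂ) (π0 : P4 →ₐ[ℂ] A)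
    (hker : ∀ b, π0 b = 0 ↔ quintic - C c ∣ b) (h0 : Function.Surjective π0) :
    Nonempty (A ≃ₐ[ℂ] MvPolynomial (Fin 3) ℂ) := by
  let φ : P5 →ₐ[ℂ] A := π0.comp pi
  have hφ : ∀ G, π0 (pi G) = φ G := fun G => rfl
  have hp : φ (X 0) = algebraMap ℂ A c := by
    have := (hker _).2 dvd_rfl
    rw [map_sub, ← pB_eq, ← pi0, sub_eq_zero] at this
    rw [← hφ, this, ← MvPolynomial.algebraMap_eq, AlgHom.commutes]
  have hH : φ HH = 0 := by rw [← hφ, pi_H, map_zero]
  by_cases hc : c = 0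
  · subst hc
    refine fibre_iso_of 0 π0 hker h0 (aeval ![0, X 0, X 1,
      (X 0 + X 1) ^ 2 * (X 1 - X 0) + (1 + X 0 * X 1 * (X 0 + X 1)) * X 2,
      (X 0 * X 1) ^ 2 * X 2 - (1 - X 0 * X 1 * (X 0 + X 1)) * (X 1 - X 0)]) ?_ (by simp)
      ![X 1, X 2, (1 - X 1 * X 2 * (X 1 + X 2)) * X 3 + (X 1 + X 2) ^ 2 * X 4] ?_ ?_
    · simp [HH, H0, xP, uP]
      ring
    · intro i
      fin_cases i
      · simp
      · simp
      · simp
        ring
    · intro S hS
      have hs : φ (X 1) ∈ S := hS 0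
      have hv : φ (X 2) ∈ S := hS 1
      have hG : φ ((1 - X 1 * X 2 * (X 1 + X 2)) * X 3 + (X 1 + X 2) ^ 2 * X 4) ∈ S := hS 2
      rw [map_zero] at hp
      simp only [HH, H0, xP, uP, map_sub, map_add, map_mul, map_pow, map_one, hp] at hH hG
      have hσ := add_mem hs hv
      have hx := mul_mem hs hv
      intro i
      fin_cases i
      · show φ (X 0) ∈ S
        rw [hp]; exact zero_mem _
      · exact hs
      · exact hv
      · show φ (X 3) ∈ S
        have : φ (X 3) = (φ (X 1) + φ (X 2)) ^ 2 * (φ (X 2) - φ (X 1)) +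
            (1 + φ (X 1) * φ (X 2) * (φ (X 1) + φ (X 2))) *
            ((1 - φ (X 1) * φ (X 2) * (φ (X 1) + φ (X 2))) * φ (X 3) +
              (φ (X 1) + φ (X 2)) ^ 2 * φ (X 4)) := by
          linear_combination (φ (X 1) + φ (X 2)) ^ 2 * hH
        rw [this]
        exact add_mem (mul_mem (pow_mem hσ 2) (sub_mem hv hs))
          (mul_mem (add_mem (one_mem _) (mul_mem hx hσ)) hG)
      · show φ (X 4) ∈ S
        have : φ (X 4) = (φ (X 1) * φ (X 2)) ^ 2 *
            ((1 - φ (X 1) * φ (X 2) * (φ (X 1) + φ (X 2))) * φ (X 3) +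
              (φ (X 1) + φ (X 2)) ^ 2 * φ (X 4)) -
            (1 - φ (X 1) * φ (X 2) * (φ (X 1) + φ (X 2))) * (φ (X 2) - φ (X 1)) := by
          linear_combination (-(1 - φ (X 1) * φ (X 2) * (φ (X 1) + φ (X 2)))) * hH
        rw [this]
        exact sub_mem (mul_mem (pow_mem hx 2) hG)
          (mul_mem (sub_mem (one_mem _) (mul_mem hx hσ)) (sub_mem hv hs))
  · obtain ⟨U, hU⟩ : ∃ U : MvPolynomial (Fin 3) ℂ, U = C c⁻¹ * (X 0 * X 1 - X 2 * (X 2 + 1)) :=
      ⟨_, rfl⟩
    obtain ⟨s, hs⟩ : ∃ s : MvPolynomial (Fin 3) ℂ, s = X 1 - X 0 ^ 2 + X 2 * U := ⟨_, rfl⟩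
    have hcc : (C c : MvPolynomial (Fin 3) ℂ) * C c⁻¹ = 1 := by
      rw [← map_mul, mul_inv_cancel₀ hc, map_one]
    let θ : P5 →ₐ[ℂ] MvPolynomial (Fin 3) ℂ :=
      aeval ![C c, s, s + U, C c⁻¹ * (X 0 - s * (s + U)), C c⁻¹ * (X 2 - X 0 * s)]
    have t0 : θ (X 0) = C c := by simp [θ]
    have t1 : θ (X 1) = s := by simp [θ]
    have t2 : θ (X 2) = s + U := by simp [θ]
    have t3 : θ (X 3) = C c⁻¹ * (X 0 - s * (s + U)) := by simp [θ]
    have t4 : θ (X 4) = C c⁻¹ * (X 2 - X 0 * s) := by simp [θ]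
    have tx : θ xP = X 0 := by
      simp only [xP, map_add, map_mul, t0, t1, t2, t3]
      linear_combination (X 0 - s * (s + U)) * hcc
    have tz : θ zP = X 2 := by
      simp only [zP, map_add, map_mul, t0, t1, t4, tx]
      linear_combination (X 2 - X 0 * s) * hcc
    have tu : θ uP = U := by
      simp only [uP, map_sub, t1, t2]; ring
    have ty : θ yP = X 1 := by
      simp only [yP, map_sub, map_add, map_mul, map_pow, t1, tx, tz, tu, hs]; ring
    refine fibre_iso_of c π0 hker h0 θ ?_ t0 ![xP, yP, zP] ?_ ?_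
    · have := congrArg θ rel0
      simp only [map_sub, map_add, map_mul, map_one, t0, tx, ty, tz] at this
      rw [HH, map_sub, tu, hU, this]
      linear_combination (-θ H0) * hcc
    · intro i
      fin_cases i
      exacts [tx, ty, tz]
    · intro S hS
      have hx : φ xP ∈ S := hS 0
      have hy : φ yP ∈ S := hS 1
      have hz : φ zP ∈ S := hS 2
      have hi : algebraMap ℂ A c⁻¹ ∈ S := S.algebraMap_mem _
      have hcc' : algebraMap ℂ A c⁻¹ * φ (X 0) = 1 := by
        rw [hp, ← map_mul, inv_mul_cancel₀ hc, map_one]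
      have hu : φ uP ∈ S := by
        have h1 := congrArg φ rel0
        rw [HH, map_sub, sub_eq_zero] at hH
        simp only [map_sub, map_add, map_mul, map_one, hH] at h1
        have : φ uP = algebraMap ℂ A c⁻¹ * (φ xP * φ yP - φ zP * (φ zP + 1)) := by
          rw [h1]; linear_combination (-φ uP) * hcc'
        rw [this]
        exact mul_mem hi (sub_mem (mul_mem hx hy) (mul_mem hz (add_mem hz (one_mem _))))
      have hs : φ (X 1) ∈ S := by
        have : φ (X 1) = φ yP - φ xP ^ 2 + φ zP * φ uP := by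
          simp only [yP, map_sub, map_add, map_mul, map_pow]; ring
        rw [this]
        exact add_mem (sub_mem hy (pow_mem hx 2)) (mul_mem hz hu)
      have hv : φ (X 2) ∈ S := by
        have : φ (X 2) = φ (X 1) + φ uP := by simp only [uP, map_sub]; ring
        rw [this]
        exact add_mem hs hu
      intro i
      fin_cases i
      · show φ (X 0) ∈ S
        rw [hp]; exact S.algebraMap_mem _
      · exact hs
      · exact hv
      · show φ (X 3) ∈ S
        have : φ (X 3) = algebraMap ℂ A c⁻¹ * (φ xP - φ (X 1) * φ (X 2)) := by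
          simp only [xP, map_add, map_mul]
          linear_combination (-φ (X 3)) * hcc'
        rw [this]
        exact mul_mem hi (sub_mem hx (mul_mem hs hv))
      · show φ (X 4) ∈ S
        have : φ (X 4) = algebraMap ℂ A c⁻¹ * (φ zP - φ xP * φ (X 1)) := by
          simp only [zP, map_add, map_mul]
          linear_combination (-φ (X 4)) * hcc'
        rw [this]
        exact mul_mem hi (sub_mem hz (mul_mem hx hs))

theorem fibre (c : ℂ) : Nonempty ((MvPolynomial (Fin 4) ℂ ⧸ Ideal.span {quintic - C c}) ≃ₐ[ℂ]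
    MvPolynomial (Fin 3) ℂ) :=
  fibre_iso (A := MvPolynomial (Fin 4) ℂ ⧸ Ideal.span {quintic - C c}) c (Ideal.Quotient.mkₐ ℂ _)
    (fun b => by simp [Ideal.Quotient.eq_zero_iff_mem, Ideal.mem_span_singleton])
    Ideal.Quotient.mk_surjective

end Four

end

end Vale.Agent.P295
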